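import Vale.Agent.P017D.All

/-! # The density of the imaginary quadratic fields over which `X₀(15)` has rank zero -/

open Vale.Agent.P017D

theorem Vale.Agent.Results.P017.ADensity.result :
    (∀ X, (Box X).Finite) ∧ Density (fun K => Finite (Pts K.F)) (25 / 48) ∧
      Density (fun K => (Inert3 K.F ↔ Split5 K.F) ∧ Finite (Pts K.F)) (25 / 48) ∧
      Density (fun K => ¬ (Inert3 K.F ↔ Split5 K.F) ∧ rk K.F = 1) (23 / 48) :=
  main
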